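import Vale.Agent.P258.R2.H394.Four.Code

set_option linter.all false

namespace Vale.Agent.P258.Four

open Matrix

theorem cd_digits : ∀ a b c d : Fin 4,
    Nat.land (cd a.val b.val c.val d.val) 7 = a.val ∧
    Nat.land (Nat.shiftRight (cd a.val b.val c.val d.val) 3) 7 = b.val ∧
    Nat.land (Nat.shiftRight (cd a.val b.val c.val d.val) 6) 7 = c.val ∧
    Nat.shiftRight (cd a.val b.val c.val d.val) 9 = d.val ∧
    invN (cd a.val b.val c.val d.val) = cd d.val b.val c.val a.val := by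
  decide +kernel

theorem cd_dig (a b c d : F4) :
    Nat.land (cd a.val b.val c.val d.val) 7 = a.val ∧
    Nat.land (Nat.shiftRight (cd a.val b.val c.val d.val) 3) 7 = b.val ∧
    Nat.land (Nat.shiftRight (cd a.val b.val c.val d.val) 6) 7 = c.val ∧
    Nat.shiftRight (cd a.val b.val c.val d.val) 9 = d.val ∧
    invN (cd a.val b.val c.val d.val) = cd d.val b.val c.val a.val :=
  cd_digits a.toFin b.toFin c.toFin d.toFin

theorem mulN_cd (a b c d e f g h : F4) :
    mulN (cd a.val b.val c.val d.val) (cd e.val f.val g.val h.val) =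
      mulA a.val b.val c.val d.val e.val f.val g.val h.val := by
  obtain ⟨h1, h2, h3, h4, _⟩ := cd_dig a b c d
  obtain ⟨k1, k2, k3, k4, _⟩ := cd_dig e f g h
  unfold mulN
  rw [h1, h2, h3, h4, k1, k2, k3, k4]

/-- The code of an element of `SL(2, 4)`. -/
def code (A : G) : ℕ := cd (A.1 0 0).val (A.1 0 1).val (A.1 1 0).val (A.1 1 1).val

theorem code_mul (A B : G) : code (A * B) = mulN (code A) (code B) := by
  unfold code
  rw [mulN_cd]
  rw [Matrix.SpecialLinearGroup.coe_mul]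
  simp only [Matrix.mul_apply, Fin.sum_univ_two]
  rfl

theorem code_inv (A : G) : code A⁻¹ = invN (code A) := by
  unfold code
  rw [(cd_dig _ _ _ _).2.2.2.2]
  rw [Matrix.SpecialLinearGroup.coe_inv, Matrix.adjugate_fin_two]
  rfl

theorem code_one : code 1 = 513 := by decide +kernel

theorem code_inj {A B : G} (h : code A = code B) : A = B := by
  unfold code at h
  obtain ⟨h1, h2, h3, h4, _⟩ := cd_dig (A.1 0 0) (A.1 0 1) (A.1 1 0) (A.1 1 1)
  obtain ⟨k1, k2, k3, k4, _⟩ := cd_dig (B.1 0 0) (B.1 0 1) (B.1 1 0) (B.1 1 1)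
  rw [h] at h1 h2 h3 h4
  apply Subtype.ext
  ext i j
  fin_cases i <;> fin_cases j
  · exact h1.symm.trans k1
  · exact h2.symm.trans k2
  · exact h3.symm.trans k3
  · exact h4.symm.trans k4

theorem code_cj (x k : G) : code (k⁻¹ * x * k) = cjN (code x) (code k) := by
  rw [code_mul, code_mul, code_inv]; rfl

theorem code_ci (x k : G) : code (k * x * k⁻¹) = ciN (code x) (code k) := by
  rw [code_mul, code_mul, code_inv]; rfl

/-- The trace. -/
def tr (A : G) : ℕ := Nat.xor (A.1 0 0).val (A.1 1 1).val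

theorem tr_lt (A : G) : tr A < 4 := Nat.xor_lt_two_pow (n := 2) (A.1 0 0).lt (A.1 1 1).lt

theorem tr_eq (A : G) : tr A = (Matrix.trace A.1).val := by
  rw [Matrix.trace_fin_two]; rfl

theorem tr_conj (x k : G) : tr (k⁻¹ * x * k) = tr x := by
  rw [tr_eq, tr_eq]
  congr 1
  have h1 : (k⁻¹ * x * k).1 = (k⁻¹ * x).1 * k.1 := rfl
  have h2 : x.1 = k.1 * (k⁻¹ * x).1 := by
    have : x = k * (k⁻¹ * x) := by group
    exact congrArg Subtype.val this
  rw [h1, Matrix.trace_mul_comm, ← h2]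

theorem det_eq (A : G) : Nat.xor (fmN (A.1 0 0).val (A.1 1 1).val)
    (fmN (A.1 0 1).val (A.1 1 0).val) = 1 := by
  have h := A.2
  rw [Matrix.det_fin_two] at h
  exact congrArg F4.val h

/-- Facts about all elements, checked by enumeration. -/
theorem all_facts : ∀ a b c d : Fin 4,
    Nat.xor (fmN a.val d.val) (fmN b.val c.val) = 1 →
    (Nat.xor a.val d.val = 0 → mulN (cd a.val b.val c.val d.val) (cd a.val b.val c.val d.val) = 513) ∧
    (Nat.xor a.val d.val ≠ 0 →
      cd a.val b.val c.val d.val ∈ cl (Nat.xor a.val d.val) ∧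
      (Nat.land (wN (cd a.val b.val c.val d.val)) 7 < 4 ∧
        Nat.land (Nat.shiftRight (wN (cd a.val b.val c.val d.val)) 3) 7 < 4 ∧
        Nat.land (Nat.shiftRight (wN (cd a.val b.val c.val d.val)) 6) 7 < 4 ∧
        Nat.shiftRight (wN (cd a.val b.val c.val d.val)) 9 < 4) ∧
      cd (Nat.land (wN (cd a.val b.val c.val d.val)) 7)
        (Nat.land (Nat.shiftRight (wN (cd a.val b.val c.val d.val)) 3) 7)
        (Nat.land (Nat.shiftRight (wN (cd a.val b.val c.val d.val)) 6) 7)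
        (Nat.shiftRight (wN (cd a.val b.val c.val d.val)) 9) = wN (cd a.val b.val c.val d.val) ∧
      Nat.xor (fmN (Nat.land (wN (cd a.val b.val c.val d.val)) 7)
          (Nat.shiftRight (wN (cd a.val b.val c.val d.val)) 9))
        (fmN (Nat.land (Nat.shiftRight (wN (cd a.val b.val c.val d.val)) 3) 7)
          (Nat.land (Nat.shiftRight (wN (cd a.val b.val c.val d.val)) 6) 7)) = 1 ∧
      mulN (wN (cd a.val b.val c.val d.val)) (cd a.val b.val c.val d.val) =
        mulN (cd 0 1 1 (Nat.xor a.val d.val)) (wN (cd a.val b.val c.val d.val))) := by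
  decide +kernel

theorem cen_facts : ∀ t : Fin 4, ∀ a b c d : Fin 4, t.val ≠ 0 →
    Nat.xor (fmN a.val d.val) (fmN b.val c.val) = 1 →
    mulN (cd 0 1 1 t.val) (cd a.val b.val c.val d.val) =
      mulN (cd a.val b.val c.val d.val) (cd 0 1 1 t.val) →
    cd a.val b.val c.val d.val ∈ cen t.val := by
  decide +kernel

theorem sq_of_tr {A : G} (h : tr A = 0) : A * A = 1 := by
  apply code_inj
  rw [code_mul, code_one]
  exact (all_facts (A.1 0 0).toFin (A.1 0 1).toFin (A.1 1 0).toFin (A.1 1 1).toFin (det_eq A)).1 h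

theorem mem_cl {A : G} (h : tr A ≠ 0) : code A ∈ cl (tr A) :=
  ((all_facts (A.1 0 0).toFin (A.1 0 1).toFin (A.1 1 0).toFin (A.1 1 1).toFin (det_eq A)).2 h).1

/-- The companion matrix of trace `t`. -/
def comp (t : F4) : G := ⟨!![0, 1; 1, t], by
  rw [Matrix.det_fin_two_of]
  rcases t with ⟨t, ht⟩
  apply F4.ext'
  change Nat.xor (fmN 0 t) (fmN 1 1) = 1
  revert t
  decide +kernel⟩

theorem code_comp (t : F4) : code (comp t) = cd 0 1 1 t.val := rfl

/-- Each element of nonzero trace is conjugate to a companion matrix, by an element with the code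
given by `wN`. -/
theorem exists_w {A : G} (h : tr A ≠ 0) :
    ∃ W : G, code W = wN (code A) ∧ W * A = comp ⟨tr A, tr_lt A⟩ * W := by
  obtain ⟨_, ⟨l1, l2, l3, l4⟩, hc, hdet, hm⟩ :=
    (all_facts (A.1 0 0).toFin (A.1 0 1).toFin (A.1 1 0).toFin (A.1 1 1).toFin (det_eq A)).2 h
  let W : G := ⟨!![(⟨_, l1⟩ : F4), ⟨_, l2⟩; ⟨_, l3⟩, ⟨_, l4⟩], by
    rw [Matrix.det_fin_two_of]
    exact F4.ext' hdet⟩
  have hW : code W = wN (code A) := hc
  refine ⟨W, hW, code_inj ?_⟩
  rw [code_mul, code_mul, hW, code_comp]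
  exact hm

theorem mem_cen {t : F4} (ht : t.val ≠ 0) {A : G} (h : comp t * A = A * comp t) :
    code A ∈ cen t.val := by
  have h2 := congrArg code h
  rw [code_mul, code_mul, code_comp] at h2
  exact cen_facts t.toFin (A.1 0 0).toFin (A.1 0 1).toFin (A.1 1 0).toFin (A.1 1 1).toFin ht
    (det_eq A) h2

/-- All elements conjugating `g` to `h`. -/
theorem transporter {g h y : G} (hg : tr g ≠ 0) (hy : h = y⁻¹ * g * y) :
    ∃ c ∈ cen (tr g), code y = mulN (mulN (invN (wN (code g))) c) (wN (code h)) := by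
  have ht : tr h = tr g := by rw [hy, tr_conj]
  have hh : tr h ≠ 0 := by rw [ht]; exact hg
  obtain ⟨Wg, hWg, eg⟩ := exists_w hg
  obtain ⟨Wh, hWh, eh⟩ := exists_w hh
  have e0 : (⟨tr h, tr_lt h⟩ : F4) = ⟨tr g, tr_lt g⟩ := F4.ext' ht
  rw [e0] at eh
  set C := comp ⟨tr g, tr_lt g⟩ with hC
  have eg' : g = Wg⁻¹ * C * Wg := by rw [mul_assoc, ← eg]; group
  have eh' : h = Wh⁻¹ * C * Wh := by rw [mul_assoc, ← eh]; group
  refine ⟨code (Wg * y * Wh⁻¹), ?_, ?_⟩
  · refine mem_cen (t := ⟨tr g, tr_lt g⟩) hg ?_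
    rw [← hC]
    have h1 : Wh⁻¹ * C * Wh = y⁻¹ * (Wg⁻¹ * C * Wg) * y := by rw [← eg', ← eh', hy]
    calc C * (Wg * y * Wh⁻¹)
        = Wg * y * (y⁻¹ * (Wg⁻¹ * C * Wg) * y) * Wh⁻¹ := by group
      _ = Wg * y * (Wh⁻¹ * C * Wh) * Wh⁻¹ := by rw [h1]
      _ = Wg * y * Wh⁻¹ * C := by group
  · rw [← hWg, ← hWh, ← code_inv, ← code_mul, ← code_mul]
    congr 1
    group

end Vale.Agent.P258.Four
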