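import Vale.Agent.P258.R2.H394.Four.Sound
import Vale.Agent.P258.H331.Main

set_option linter.all false

/-!
The second pattern and the group `SL(2, 4)`, for the slope `2`.
-/

namespace Vale.Agent.P258.Four

theorem patRel_of_isCol (v : Fin 33 → G) (h : patternB.IsCol v) : PatRel v := by
  have g : ∀ a : Fin 33, v (Second.nextV a) = v (Second.aboveV a) ^ (-(Second.sgnV a : ℤ)) * v a *
      v (Second.aboveV a) ^ (Second.sgnV a : ℤ) := by
    intro a
    rw [← Second.nextV_eq, ← Second.aboveV_eq, ← Second.sgnV_eq]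
    exact h a
  constructor
  · have := g 0; simp [Second.nextV, Second.aboveV, Second.sgnV] at this; rw [this]; group
  · have := g 1; simp [Second.nextV, Second.aboveV, Second.sgnV] at this; rw [this]; group
  · have := g 2; simp [Second.nextV, Second.aboveV, Second.sgnV] at this; rw [this]; group
  · have := g 3; simp [Second.nextV, Second.aboveV, Second.sgnV] at this; exact this
  · have := g 4; simp [Second.nextV, Second.aboveV, Second.sgnV] at this; exact this
  · have := g 5; simp [Second.nextV, Second.aboveV, Second.sgnV] at this; exact this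
  · have := g 6; simp [Second.nextV, Second.aboveV, Second.sgnV] at this; exact this
  · have := g 7; simp [Second.nextV, Second.aboveV, Second.sgnV] at this; rw [this]; group
  · have := g 8; simp [Second.nextV, Second.aboveV, Second.sgnV] at this; exact this
  · have := g 9; simp [Second.nextV, Second.aboveV, Second.sgnV] at this; exact this
  · have := g 10; simp [Second.nextV, Second.aboveV, Second.sgnV] at this; exact this
  · have := g 11; simp [Second.nextV, Second.aboveV, Second.sgnV] at this; exact this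
  · have := g 12; simp [Second.nextV, Second.aboveV, Second.sgnV] at this; exact this
  · have := g 13; simp [Second.nextV, Second.aboveV, Second.sgnV] at this; exact this
  · have := g 14; simp [Second.nextV, Second.aboveV, Second.sgnV] at this; exact this
  · have := g 15; simp [Second.nextV, Second.aboveV, Second.sgnV] at this; exact this
  · have := g 16; simp [Second.nextV, Second.aboveV, Second.sgnV] at this; exact this
  · have := g 17; simp [Second.nextV, Second.aboveV, Second.sgnV] at this; exact this
  · have := g 18; simp [Second.nextV, Second.aboveV, Second.sgnV] at this; exact this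
  · have := g 19; simp [Second.nextV, Second.aboveV, Second.sgnV] at this; exact this
  · have := g 20; simp [Second.nextV, Second.aboveV, Second.sgnV] at this; exact this
  · have := g 21; simp [Second.nextV, Second.aboveV, Second.sgnV] at this; exact this
  · have := g 22; simp [Second.nextV, Second.aboveV, Second.sgnV] at this; exact this
  · have := g 23; simp [Second.nextV, Second.aboveV, Second.sgnV] at this; exact this
  · have := g 24; simp [Second.nextV, Second.aboveV, Second.sgnV] at this; rw [this]; group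
  · have := g 25; simp [Second.nextV, Second.aboveV, Second.sgnV] at this; rw [this]; group
  · have := g 26; simp [Second.nextV, Second.aboveV, Second.sgnV] at this; rw [this]; group
  · have := g 27; simp [Second.nextV, Second.aboveV, Second.sgnV] at this; exact this
  · have := g 28; simp [Second.nextV, Second.aboveV, Second.sgnV] at this; rw [this]; group
  · have := g 29; simp [Second.nextV, Second.aboveV, Second.sgnV] at this; rw [this]; group
  · have := g 30; simp [Second.nextV, Second.aboveV, Second.sgnV] at this; exact this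
  · have := g 31; simp [Second.nextV, Second.aboveV, Second.sgnV] at this; exact this
  · have := g 32; simp [Second.nextV, Second.aboveV, Second.sgnV] at this; rw [this]; group

theorem isCol_of_patRel (v : Fin 33 → G) (h : PatRel v) : patternB.IsCol v := by
  have g : ∀ a : Fin 33, v (Second.nextV a) = v (Second.aboveV a) ^ (-(Second.sgnV a : ℤ)) * v a *
      v (Second.aboveV a) ^ (Second.sgnV a : ℤ) := by
    intro a
    fin_cases a
    · have := h.f0; simp [Second.nextV, Second.aboveV, Second.sgnV]; rw [this]; group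
    · have := h.f1; simp [Second.nextV, Second.aboveV, Second.sgnV]; rw [this]; group
    · have := h.f2; simp [Second.nextV, Second.aboveV, Second.sgnV]; rw [this]; group
    · simpa [Second.nextV, Second.aboveV, Second.sgnV] using h.f3
    · simpa [Second.nextV, Second.aboveV, Second.sgnV] using h.f4
    · simpa [Second.nextV, Second.aboveV, Second.sgnV] using h.f5
    · simpa [Second.nextV, Second.aboveV, Second.sgnV] using h.f6
    · have := h.f7; simp [Second.nextV, Second.aboveV, Second.sgnV]; rw [this]; group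
    · simpa [Second.nextV, Second.aboveV, Second.sgnV] using h.f8
    · simpa [Second.nextV, Second.aboveV, Second.sgnV] using h.f9
    · simpa [Second.nextV, Second.aboveV, Second.sgnV] using h.f10
    · simpa [Second.nextV, Second.aboveV, Second.sgnV] using h.f11
    · simpa [Second.nextV, Second.aboveV, Second.sgnV] using h.f12
    · simpa [Second.nextV, Second.aboveV, Second.sgnV] using h.f13
    · simpa [Second.nextV, Second.aboveV, Second.sgnV] using h.f14
    · simpa [Second.nextV, Second.aboveV, Second.sgnV] using h.f15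
    · simpa [Second.nextV, Second.aboveV, Second.sgnV] using h.f16
    · simpa [Second.nextV, Second.aboveV, Second.sgnV] using h.f17
    · simpa [Second.nextV, Second.aboveV, Second.sgnV] using h.f18
    · simpa [Second.nextV, Second.aboveV, Second.sgnV] using h.f19
    · simpa [Second.nextV, Second.aboveV, Second.sgnV] using h.f20
    · simpa [Second.nextV, Second.aboveV, Second.sgnV] using h.f21
    · simpa [Second.nextV, Second.aboveV, Second.sgnV] using h.f22
    · simpa [Second.nextV, Second.aboveV, Second.sgnV] using h.f23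
    · have := h.f24; simp [Second.nextV, Second.aboveV, Second.sgnV]; rw [this]; group
    · have := h.f25; simp [Second.nextV, Second.aboveV, Second.sgnV]; rw [this]; group
    · have := h.f26; simp [Second.nextV, Second.aboveV, Second.sgnV]; rw [this]; group
    · simpa [Second.nextV, Second.aboveV, Second.sgnV] using h.f27
    · have := h.f28; simp [Second.nextV, Second.aboveV, Second.sgnV]; rw [this]; group
    · have := h.f29; simp [Second.nextV, Second.aboveV, Second.sgnV]; rw [this]; group
    · simpa [Second.nextV, Second.aboveV, Second.sgnV] using h.f30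
    · simpa [Second.nextV, Second.aboveV, Second.sgnV] using h.f31
    · have := h.f32; simp [Second.nextV, Second.aboveV, Second.sgnV]; rw [this]; group
  intro a
  change Fin 33 at a
  have h1 := g a
  rw [← Second.nextV_eq a, ← Second.aboveV_eq a, ← Second.sgnV_eq a] at h1
  exact h1

theorem arc_term (v : Fin 33 → G) (b : Fin 33) :
    v (patternB.above b) ^ ((patternB.sgn b : ℤˣ) : ℤ) = v (Second.aboveV b) ^ (Second.sgnV b : ℤ) := by
  rw [Second.aboveV_eq, Second.sgnV_eq]

theorem lonVal_K (v : Fin 33 → G) : patternB.lonVal v patternBK = lamB v := by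
  have h : (fun b : Fin 33 => v (patternB.above b) ^ ((patternB.sgn b : ℤˣ) : ℤ)) =
      fun b => v (Second.aboveV b) ^ (Second.sgnV b : ℤ) := funext (arc_term v)
  have h1 : (List.map (fun b : Fin 33 => v (patternB.above b) ^ ((patternB.sgn b : ℤˣ) : ℤ))
      [0, 1, 2, 3, 4, 5, 6, 7, 8, 9, 10, 11, 12, 13, 14, 15, 16, 17, 18, 19, 20, 21, 22, 23, 24,
        25, 26, 27, 28, 29, 30]).prod =
      v 26 ^ (-1 : ℤ) * (v 25 ^ (-1 : ℤ) * (v 31 ^ (-1 : ℤ) * (v 11 ^ (1 : ℤ) * (v 10 ^ (1 : ℤ) *
        (v 9 ^ (1 : ℤ) * (v 8 ^ (1 : ℤ) * (v 29 ^ (-1 : ℤ) * (v 6 ^ (1 : ℤ) * (v 5 ^ (1 : ℤ) * (v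
        4 ^ (1 : ℤ) * (v 3 ^ (1 : ℤ) * (v 22 ^ (1 : ℤ) * (v 21 ^ (1 : ℤ) * (v 20 ^ (1 : ℤ) * (v 19
        ^ (1 : ℤ) * (v 18 ^ (1 : ℤ) * (v 0 ^ (1 : ℤ) * (v 16 ^ (1 : ℤ) * (v 15 ^ (1 : ℤ) * (v 14 ^
        (1 : ℤ) * (v 13 ^ (1 : ℤ) * (v 12 ^ (1 : ℤ) * (v 31 ^ (1 : ℤ) * (v 2 ^ (-1 : ℤ) * (v 1 ^
        (-1 : ℤ) * (v 0 ^ (-1 : ℤ) * (v 7 ^ (1 : ℤ) * (v 8 ^ (-1 : ℤ) * (v 7 ^ (-1 : ℤ) * (v 17 ^
        (1 : ℤ) * (1))))))))))))))))))))))))))))))) := by
    rw [h]
    rfl
  have h3 := lonVal_eq (D := patternB) v patternBK _ _ _ Second.walk_K Second.writhe_K h1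
  have h2 : v patternBK = v 0 := rfl
  rw [h2] at h3
  rw [h3]
  simp only [lamB, zpow_one, zpow_neg_one, mul_one, mul_assoc]

theorem lonVal_E (v : Fin 33 → G) : patternB.lonVal v patternBE = v 24 * (v 2)⁻¹ := by
  have h : (fun b : Fin 33 => v (patternB.above b) ^ ((patternB.sgn b : ℤˣ) : ℤ)) =
      fun b => v (Second.aboveV b) ^ (Second.sgnV b : ℤ) := funext (arc_term v)
  have h1 : (List.map (fun b : Fin 33 => v (patternB.above b) ^ ((patternB.sgn b : ℤˣ) : ℤ))
      [31, 32]).prod = v 24 ^ (1 : ℤ) * (v 2 ^ (-1 : ℤ) * (1)) := by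
    rw [h]
    rfl
  have h3 := lonVal_eq (D := patternB) v patternBE _ _ _ Second.walk_E Second.writhe_E h1
  rw [h3]
  simp only [zpow_one, zpow_neg_one, mul_one, neg_zero, zpow_zero]

theorem tr_next (D : Diagram) (ρ : Fin D.n → G) (h : D.IsCol ρ) (a : Fin D.n) :
    tr (ρ (D.next a)) = tr (ρ a) := by
  rcases Int.units_eq_one_or (D.sgn a) with hs | hs
  · have h1 := h a
    rw [hs] at h1
    have h2 : ρ (D.next a) = (ρ (D.above a))⁻¹ * ρ a * ρ (D.above a) := by
      simpa using h1
    rw [h2, tr_conj]
  · have h1 := h a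
    rw [hs] at h1
    have h2 : ρ a = (ρ (D.above a))⁻¹ * ρ (D.next a) * ρ (D.above a) := by
      rw [h1]
      simp only [Units.val_neg, Units.val_one, neg_neg, zpow_one, zpow_neg]
      group
    rw [h2, tr_conj]

theorem tr_same (D : Diagram) (ρ : Fin D.n → G) (h : D.IsCol ρ) {a b : Fin D.n}
    (hab : D.SameComponent a b) : tr (ρ b) = tr (ρ a) := by
  obtain ⟨i, rfl⟩ := hab
  induction i with
  | zero => rfl
  | succ i ih => rw [Function.iterate_succ_apply', tr_next D ρ h, ih]

theorem keyR (ρ : Fin 33 → G) (h : patternB.IsCol ρ)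
    (hE : patternB.lonVal ρ patternBE = 1 → ρ 31 = 1)
    (hl : ρ 0 * ρ 0 * patternB.lonVal ρ patternBK = 1) : ρ 0 * ρ 0 = 1 := by
  by_contra hne
  have ht0 : tr (ρ 0) ≠ 0 := fun h0 => hne (sq_of_tr h0)
  have htr : ∀ b : Fin 33, b.val < 31 → tr (ρ b) = tr (ρ 0) := fun b hb =>
    tr_same patternB ρ h ((Second.comp_K b).2 hb)
  have ht7 : tr (ρ 7) ≠ 0 := by rw [htr 7 (by decide)]; exact ht0
  obtain ⟨W, hW, eW⟩ := exists_w ht7
  let φ : G →* G := (MulAut.conj W).toMonoidHom
  have hφ : ∀ g, φ g = W * g * W⁻¹ := fun g => by simp [φ]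
  have hφinj : Function.Injective φ := (MulAut.conj W).injective
  let v : Fin 33 → G := fun a => φ (ρ a)
  have hv : patternB.IsCol v := Diagram.IsCol.map patternB h φ
  have hP : PatRel v := patRel_of_isCol v hv
  have hEv : v 24 * (v 2)⁻¹ = 1 → v 31 = 1 := by
    intro h1
    have h2 : patternB.lonVal v patternBE = 1 := by rw [lonVal_E]; exact h1
    have h3 : patternB.lonVal v patternBE = φ (patternB.lonVal ρ patternBE) :=
      Diagram.lonVal_map patternB ρ φ patternBE
    rw [h3] at h2
    have h4 : patternB.lonVal ρ patternBE = 1 := hφinj (by rw [h2, map_one])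
    change φ (ρ 31) = 1
    rw [hE h4, map_one]
  have hlv : v 0 * v 0 * lamB v = 1 := by
    rw [← lonVal_K]
    have h3 : patternB.lonVal v patternBK = φ (patternB.lonVal ρ patternBK) :=
      Diagram.lonVal_map patternB ρ φ patternBK
    have h4 : v 0 * v 0 * φ (patternB.lonVal ρ patternBK) =
        φ (ρ 0 * ρ 0 * patternB.lonVal ρ patternBK) := by
      rw [map_mul, map_mul]
    rw [h3, h4, hl, map_one]
  have htv : ∀ b : Fin 33, b.val < 31 → tr (v b) = tr (v 0) := fun b hb =>
    tr_same patternB v hv ((Second.comp_K b).2 hb)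
  have hv7 : v 7 = comp ⟨tr (ρ 7), tr_lt _⟩ := by
    change φ (ρ 7) = _
    rw [hφ, eW]; group
  have ht : tr (v 7) = tr (ρ 7) := by
    change tr (φ (ρ 7)) = _
    rw [hφ]
    have := tr_conj (ρ 7) W⁻¹
    rwa [inv_inv] at this
  have e7 : tr (v 0) = tr (ρ 7) := (htv 7 (by decide)).symm.trans ht
  have hne : tr (v 0) ≠ 0 := by rw [e7]; exact ht7
  have h29 : code (v 29) ∈ cl (tr (ρ 7)) := by
    have := mem_cl (A := v 29) (by rw [htv 29 (by decide)]; exact hne)
    rwa [htv 29 (by decide), e7] at this
  have h23 : code (v 23) ∈ cl (tr (ρ 7)) := by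
    have := mem_cl (A := v 23) (by rw [htv 23 (by decide)]; exact hne)
    rwa [htv 23 (by decide), e7] at this
  have hc : ∃ c ∈ cen (tr (ρ 7)),
      code (v 31) = mulN (mulN (invN (wN (code (v 23)))) c) (wN (code (v 24))) := by
    have := transporter (g := v 23) (h := v 24) (y := v 31)
      (by rw [htv 23 (by decide)]; exact hne) hP.f23
    rwa [htv 23 (by decide), e7] at this
  refine sound v hP hEv (tr (ρ 7)) h29 h23 hc ?_ hlv
  rw [hv7, code_comp]
  exact check ⟨tr (ρ 7), tr_lt _⟩ ht7

/-- The element with a given code. -/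
def toG (x : ℕ) : G :=
  if h : (Nat.land x 7 < 4 ∧ Nat.land (Nat.shiftRight x 3) 7 < 4 ∧
      Nat.land (Nat.shiftRight x 6) 7 < 4 ∧ Nat.shiftRight x 9 < 4) ∧
      Nat.xor (fmN (Nat.land x 7) (Nat.shiftRight x 9))
      (fmN (Nat.land (Nat.shiftRight x 3) 7) (Nat.land (Nat.shiftRight x 6) 7)) = 1 then
    ⟨!![(⟨Nat.land x 7, h.1.1⟩ : F4), ⟨Nat.land (Nat.shiftRight x 3) 7, h.1.2.1⟩;
        ⟨Nat.land (Nat.shiftRight x 6) 7, h.1.2.2.1⟩, ⟨Nat.shiftRight x 9, h.1.2.2.2⟩], by
      rw [Matrix.det_fin_two_of]
      exact F4.ext' h.2⟩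
  else 1

/-- A colouring of the second pattern with `μ ^ 2 = λ`, `μ ^ 2 ≠ 1`. -/
def baseCol (i : Fin 33) : G :=
  toG ([584, 720, 1091, 1538, 1730, 1538, 1730, 1538, 1602, 1666, 1602, 1666, 1602, 720, 1035,
    1602, 720, 1035, 1091, 1546, 209, 1091, 1546, 209, 73, 1554, 1027, 1602, 1730, 1666, 1730,
    155, 658].getD i.val 0)

theorem baseCol_rel : PatRel baseCol where
  f0 := code_inj (by rw [code_cj]; decide +kernel)
  f1 := code_inj (by rw [code_cj]; decide +kernel)
  f2 := code_inj (by rw [code_cj]; decide +kernel)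
  f3 := code_inj (by rw [code_cj]; decide +kernel)
  f4 := code_inj (by rw [code_cj]; decide +kernel)
  f5 := code_inj (by rw [code_cj]; decide +kernel)
  f6 := code_inj (by rw [code_cj]; decide +kernel)
  f7 := code_inj (by rw [code_cj]; decide +kernel)
  f8 := code_inj (by rw [code_cj]; decide +kernel)
  f9 := code_inj (by rw [code_cj]; decide +kernel)
  f10 := code_inj (by rw [code_cj]; decide +kernel)
  f11 := code_inj (by rw [code_cj]; decide +kernel)
  f12 := code_inj (by rw [code_cj]; decide +kernel)
  f13 := code_inj (by rw [code_cj]; decide +kernel)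
  f14 := code_inj (by rw [code_cj]; decide +kernel)
  f15 := code_inj (by rw [code_cj]; decide +kernel)
  f16 := code_inj (by rw [code_cj]; decide +kernel)
  f17 := code_inj (by rw [code_cj]; decide +kernel)
  f18 := code_inj (by rw [code_cj]; decide +kernel)
  f19 := code_inj (by rw [code_cj]; decide +kernel)
  f20 := code_inj (by rw [code_cj]; decide +kernel)
  f21 := code_inj (by rw [code_cj]; decide +kernel)
  f22 := code_inj (by rw [code_cj]; decide +kernel)
  f23 := code_inj (by rw [code_cj]; decide +kernel)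
  f24 := code_inj (by rw [code_cj]; decide +kernel)
  f25 := code_inj (by rw [code_cj]; decide +kernel)
  f26 := code_inj (by rw [code_cj]; decide +kernel)
  f27 := code_inj (by rw [code_cj]; decide +kernel)
  f28 := code_inj (by rw [code_cj]; decide +kernel)
  f29 := code_inj (by rw [code_cj]; decide +kernel)
  f30 := code_inj (by rw [code_cj]; decide +kernel)
  f31 := code_inj (by rw [code_cj]; decide +kernel)
  f32 := code_inj (by rw [code_cj]; decide +kernel)

theorem baseCol_isCol : patternB.IsCol baseCol := isCol_of_patRel _ baseCol_rel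

theorem baseCol_K : patternB.lonVal baseCol patternBK = baseCol 0 * baseCol 0 := by
  rw [lonVal_K]
  apply code_inj
  unfold lamB
  rw [code_mul (_ : G) (baseCol 0 ^ (-(13 : ℤ))), code_inv13]
  simp only [code_mul, code_inv]
  decide +kernel

theorem baseCol_sq : baseCol 0 * baseCol 0 ≠ 1 := by
  intro h
  have := congrArg code h
  rw [code_mul, code_one] at this
  revert this
  decide +kernel

theorem baseCol_E5 : (patternB.lonVal baseCol patternBE) ^ (5 : ℕ) = 1 := by
  rw [lonVal_E]
  apply code_inj
  simp only [pow_succ, pow_zero, one_mul, code_mul, code_inv, code_one]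
  decide +kernel

theorem baseCol_31 : baseCol 31 = patternB.lonVal baseCol patternBE := by
  rw [lonVal_E]
  apply code_inj
  simp only [code_mul, code_inv]
  decide +kernel

def pow30N (x : ℕ) : ℕ :=
  force (mulN x x) fun u2 => force (mulN u2 u2) fun u4 => force (mulN u4 u4) fun u8 =>
    force (mulN u8 u8) fun u16 => mulN (mulN (mulN u16 u8) u4) u2

theorem chk_pow30 : ∀ a b c d : Fin 4,
    Nat.xor (fmN a.val d.val) (fmN b.val c.val) = 1 →
    pow30N (cd a.val b.val c.val d.val) = 513 := by
  decide +kernel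

theorem G_pow (g : G) : g ^ 30 = 1 := by
  have h : g ^ 30 = g ^ 16 * g ^ 8 * g ^ 4 * g ^ 2 := by
    simp only [← pow_add]
  have h2 : g ^ 2 = g * g := pow_two g
  have h4 : g ^ 4 = g ^ 2 * g ^ 2 := by simp only [← pow_add]
  have h8 : g ^ 8 = g ^ 4 * g ^ 4 := by simp only [← pow_add]
  have h16 : g ^ 16 = g ^ 8 * g ^ 8 := by simp only [← pow_add]
  apply code_inj
  have h1 : code (g ^ 30) = pow30N (code g) := by
    rw [h]
    unfold pow30N
    simp only [force_eq]
    rw [code_mul, code_mul, code_mul, h16, code_mul, h8, code_mul, h4, code_mul, h2, code_mul]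
  rw [h1, code_one]
  exact chk_pow30 (g.1 0 0).toFin (g.1 0 1).toFin (g.1 1 0).toFin (g.1 1 1).toFin (det_eq g)

end Vale.Agent.P258.Four
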